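import Crest.Agent.X212.Tbs74.Coe
import Crest.Agent.X212.Tbs74.Pt
import Crest.Agent.X212.Tbs74.Lu
import Crest.Agent.X212.Tcl71.Main
import Crest.Agent.X212.St29.U0
import Crest.Agent.X212.Tgeo51.Main
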